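import Mathlib

/-!
# P013: Jacobsthal's function for integers whose prime divisors have small reciprocal sum
-/

namespace Vale.Agent.Results.P013.SmallReciprocalSum

open Finset

lemma count_le (a : ℤ) (m p : ℕ) (hp : 0 < p) :
    (((Finset.Ico a (a + m)).filter (fun x => (p : ℤ) ∣ x)).card : ℤ) ≤ ⌈(m : ℚ) / p⌉ := by
  have h := Int.Ico_filter_dvd_card a (a + m) (r := (p : ℤ)) (by exact_mod_cast hp)
  rw [h]
  apply max_le
  · have h1 : (((a + m : ℤ) : ℚ)) / ((p : ℤ) : ℚ) = (a : ℚ) / ((p : ℤ) : ℚ) + (m : ℚ) / p := by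
      push_cast
      ring
    rw [h1]
    have := Int.ceil_add_le ((a : ℚ) / ((p : ℤ) : ℚ)) ((m : ℚ) / p)
    linarith
  · exact Int.ceil_nonneg (by positivity)

lemma exists_coprime (n : ℕ) (hn0 : n ≠ 0) (m : ℕ)
    (h : ∑ p ∈ n.primeFactors, ⌈(m : ℚ) / p⌉ < m) (a : ℤ) :
    ∃ x ∈ Finset.Ico a (a + m), IsCoprime x (n : ℤ) := by
  by_contra hcon
  have hall : ∀ x ∈ Finset.Ico a (a + m), ¬ IsCoprime x (n : ℤ) := fun x hx hc => hcon ⟨x, hx, hc⟩
  have hsub : Finset.Ico a (a + m) ⊆ n.primeFactors.biUnion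
      (fun p => (Finset.Ico a (a + m)).filter (fun x => (p : ℤ) ∣ x)) := by
    intro x hx
    have h1 := hall x hx
    have h1' : ¬ Nat.Coprime x.natAbs n := by
      intro hc
      apply h1
      rw [Int.isCoprime_iff_gcd_eq_one]
      simpa [Int.gcd, Nat.Coprime] using hc
    obtain ⟨p, hp, hpx, hpn⟩ := Nat.Prime.not_coprime_iff_dvd.mp h1'
    rw [Finset.mem_biUnion]
    exact ⟨p, Nat.mem_primeFactors.mpr ⟨hp, hpn, hn0⟩,
      Finset.mem_filter.mpr ⟨hx, Int.natCast_dvd.mpr hpx⟩⟩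
  have h2 := le_trans (Finset.card_le_card hsub) Finset.card_biUnion_le
  rw [Int.card_Ico] at h2
  have h3 : (m : ℤ) ≤ ∑ p ∈ n.primeFactors,
      (((Finset.Ico a (a + m)).filter (fun x => (p : ℤ) ∣ x)).card : ℤ) := by
    have h4 : (a + m - a).toNat = m := by simp
    rw [h4] at h2
    exact_mod_cast h2
  have h5 : ∑ p ∈ n.primeFactors,
      (((Finset.Ico a (a + m)).filter (fun x => (p : ℤ) ∣ x)).card : ℤ)
      ≤ ∑ p ∈ n.primeFactors, ⌈(m : ℚ) / p⌉ :=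
    Finset.sum_le_sum fun p hp => count_le a m p (Nat.pos_of_mem_primeFactors hp)
  linarith

lemma second (n m : ℕ)
    (h : (n.primeFactors.card : ℚ) ≤ m * (1 - ∑ p ∈ n.primeFactors, (1 : ℚ) / p))
    (hn : 1 < n) (a : ℤ) : ∃ x ∈ Finset.Ico a (a + m), IsCoprime x (n : ℤ) := by
  apply exists_coprime n (by omega) m
  have hne : n.primeFactors.Nonempty := Nat.nonempty_primeFactors.mpr hn
  have h1 : ((∑ p ∈ n.primeFactors, ⌈(m : ℚ) / p⌉ : ℤ) : ℚ)
      < ∑ p ∈ n.primeFactors, ((m : ℚ) / p + 1) := by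
    push_cast
    exact Finset.sum_lt_sum_of_nonempty hne fun p _ => Int.ceil_lt_add_one _
  have h2 : ∑ p ∈ n.primeFactors, ((m : ℚ) / p + 1)
      = m * (∑ p ∈ n.primeFactors, (1 : ℚ) / p) + n.primeFactors.card := by
    rw [Finset.sum_add_distrib, Finset.mul_sum]
    simp [div_eq_mul_inv]
  have h3 : ((∑ p ∈ n.primeFactors, ⌈(m : ℚ) / p⌉ : ℤ) : ℚ) < ((m : ℤ) : ℚ) := by
    push_cast at h1 ⊢
    linarith
  exact_mod_cast h3

lemma third (n : ℕ) (hn : 1 < n)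
    (h : ∑ p ∈ n.primeFactors, (1 : ℚ) / p ≤ 1 - 1 / (n.primeFactors.card : ℚ)) (a : ℤ) :
    ∃ x ∈ Finset.Ico a (a + (n.primeFactors.card ^ 2 : ℕ)), IsCoprime x (n : ℤ) := by
  apply second n _ _ hn
  have hne : n.primeFactors.Nonempty := Nat.nonempty_primeFactors.mpr hn
  have hk : (0 : ℚ) < (n.primeFactors.card : ℚ) := by exact_mod_cast Finset.card_pos.mpr hne
  have h1 : 1 / (n.primeFactors.card : ℚ) ≤ 1 - ∑ p ∈ n.primeFactors, (1 : ℚ) / p := by linarith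
  have h2 := mul_le_mul_of_nonneg_left h1 (by positivity : (0 : ℚ) ≤ (n.primeFactors.card : ℚ) ^ 2)
  have h3 : (n.primeFactors.card : ℚ) ^ 2 * (1 / (n.primeFactors.card : ℚ))
      = (n.primeFactors.card : ℚ) := by
    field_simp
  rw [h3] at h2
  push_cast
  exact h2

lemma fourth (n : ℕ) (hn : 1 < n) (h : ∀ p ∈ n.primeFactors, n.primeFactors.card < p) (a : ℤ) :
    ∃ x ∈ Finset.Ico a (a + (n.primeFactors.card + 1 : ℕ)), IsCoprime x (n : ℤ) := by
  apply exists_coprime n (by omega)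
  have h1 : ∑ p ∈ n.primeFactors, ⌈((n.primeFactors.card + 1 : ℕ) : ℚ) / p⌉
      ≤ ∑ _p ∈ n.primeFactors, (1 : ℤ) := by
    refine Finset.sum_le_sum fun p hp => ?_
    rw [Int.ceil_le]
    have hp0 : (0 : ℚ) < p := by exact_mod_cast Nat.pos_of_mem_primeFactors hp
    rw [div_le_iff₀ hp0]
    have := h p hp
    have h2 : ((n.primeFactors.card + 1 : ℕ) : ℚ) ≤ (p : ℚ) := by exact_mod_cast this
    simpa using h2
  rw [Finset.sum_const, nsmul_eq_mul, mul_one] at h1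
  push_cast at h1 ⊢
  linarith

/-- Let `n > 1`, let `ω` be the number of primes dividing `n`.
(1) If `∑_{p ∣ n} ⌈m/p⌉ < m`, every `m` consecutive integers contain one coprime to `n`.
(2) The same holds if `ω ≤ m (1 - ∑_{p ∣ n} 1/p)`.
(3) If `∑_{p ∣ n} 1/p ≤ 1 - 1/ω`, every `ω^2` consecutive integers contain one coprime to `n`.
(4) If all primes dividing `n` exceed `ω`, every `ω + 1` consecutive integers do. -/
theorem result (n : ℕ) (hn : 1 < n) :
    (∀ m : ℕ, ∑ p ∈ n.primeFactors, ⌈(m : ℚ) / p⌉ < m →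
      ∀ a : ℤ, ∃ x ∈ Finset.Ico a (a + m), IsCoprime x (n : ℤ)) ∧
    (∀ m : ℕ, (n.primeFactors.card : ℚ) ≤ m * (1 - ∑ p ∈ n.primeFactors, (1 : ℚ) / p) →
      ∀ a : ℤ, ∃ x ∈ Finset.Ico a (a + m), IsCoprime x (n : ℤ)) ∧
    (∑ p ∈ n.primeFactors, (1 : ℚ) / p ≤ 1 - 1 / (n.primeFactors.card : ℚ) →
      ∀ a : ℤ, ∃ x ∈ Finset.Ico a (a + (n.primeFactors.card ^ 2 : ℕ)), IsCoprime x (n : ℤ)) ∧
    ((∀ p ∈ n.primeFactors, n.primeFactors.card < p) →
      ∀ a : ℤ, ∃ x ∈ Finset.Ico a (a + (n.primeFactors.card + 1 : ℕ)), IsCoprime x (n : ℤ)) :=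
  ⟨fun m h => exists_coprime n (by omega) m h, fun m h => second n m h hn,
    fun h => third n hn h, fun h => fourth n hn h⟩

end Vale.Agent.Results.P013.SmallReciprocalSum
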