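import Vale.Agent.Results.P013.LargePrimes
import Vale.Agent.Results.P013.SmallReciprocalSum

/-! P013: the two elementary bounds for Jacobsthal's function together. -/

namespace Vale.Agent.Results.P013.AllParts

open Finset

/-- (A) `n > 1`, `ω` the number of primes dividing `n`: every `m` consecutive integers contain one
coprime to `n` if `∑_{p ∣ n} ⌈m/p⌉ < m`, or if `ω ≤ m (1 - ∑_{p ∣ n} 1/p)`; every `ω^2` consecutive
integers do if `∑_{p ∣ n} 1/p ≤ 1 - 1/ω`; every `ω + 1` do if all primes dividing `n` exceed `ω`.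
(B) If every `J` consecutive integers contain one coprime to `a`, then every `m` consecutive
integers contain one coprime to `a b` if `∑_{p ∣ b} ⌈m/p⌉ < ⌊m/J⌋`; every `(ω(b)+1) J` do if all
primes dividing `b` are at least `(ω(b)+1) J`. -/
theorem result :
    (∀ n : ℕ, 1 < n →
      (∀ m : ℕ, ∑ p ∈ n.primeFactors, ⌈(m : ℚ) / p⌉ < m →
        ∀ a : ℤ, ∃ x ∈ Finset.Ico a (a + m), IsCoprime x (n : ℤ)) ∧
      (∀ m : ℕ, (n.primeFactors.card : ℚ) ≤ m * (1 - ∑ p ∈ n.primeFactors, (1 : ℚ) / p) →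
        ∀ a : ℤ, ∃ x ∈ Finset.Ico a (a + m), IsCoprime x (n : ℤ)) ∧
      (∑ p ∈ n.primeFactors, (1 : ℚ) / p ≤ 1 - 1 / (n.primeFactors.card : ℚ) →
        ∀ a : ℤ, ∃ x ∈ Finset.Ico a (a + (n.primeFactors.card ^ 2 : ℕ)), IsCoprime x (n : ℤ)) ∧
      ((∀ p ∈ n.primeFactors, n.primeFactors.card < p) →
        ∀ a : ℤ, ∃ x ∈ Finset.Ico a (a + (n.primeFactors.card + 1 : ℕ)), IsCoprime x (n : ℤ))) ∧
    (∀ a b J : ℕ, b ≠ 0 → 0 < J →
      (∀ s : ℤ, ∃ x ∈ Finset.Ico s (s + J), IsCoprime x (a : ℤ)) →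
      (∀ m : ℕ, ∑ p ∈ b.primeFactors, ⌈(m : ℚ) / p⌉ < ((m / J : ℕ) : ℤ) →
        ∀ s : ℤ, ∃ x ∈ Finset.Ico s (s + m), IsCoprime x ((a * b : ℕ) : ℤ)) ∧
      ((∀ p ∈ b.primeFactors, (b.primeFactors.card + 1) * J ≤ p) →
        ∀ s : ℤ, ∃ x ∈ Finset.Ico s (s + ((b.primeFactors.card + 1) * J : ℕ)),
          IsCoprime x ((a * b : ℕ) : ℤ))) :=
  ⟨SmallReciprocalSum.result, LargePrimes.result⟩

end Vale.Agent.Results.P013.AllParts
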