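import Mathlib

/-!
# P013: adjoining large primes multiplies Jacobsthal's function at most linearly
-/

namespace Vale.Agent.Results.P013.LargePrimes

open Finset

lemma count_le (a : ℤ) (m p : ℕ) (hp : 0 < p) :
    (((Finset.Ico a (a + m)).filter (fun x => (p : ℤ) ∣ x)).card : ℤ) ≤ ⌈(m : ℚ) / p⌉ := by
  have h := Int.Ico_filter_dvd_card a (a + m) (r := (p : ℤ)) (by exact_mod_cast hp)
  rw [h]
  apply max_le
  · have h1 : (((a + m : ℤ) : ℚ)) / ((p : ℤ) : ℚ) = (a : ℚ) / ((p : ℤ) : ℚ) + (m : ℚ) / p := by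
      push_cast
      ring
    rw [h1]
    have := Int.ceil_add_le ((a : ℚ) / ((p : ℤ) : ℚ)) ((m : ℚ) / p)
    linarith
  · exact Int.ceil_nonneg (by positivity)

lemma exists_prime_dvd (b : ℕ) (hb : b ≠ 0) (x : ℤ) (h : ¬ IsCoprime x (b : ℤ)) :
    ∃ p ∈ b.primeFactors, (p : ℤ) ∣ x := by
  have h1' : ¬ Nat.Coprime x.natAbs b := by
    intro hc
    apply h
    rw [Int.isCoprime_iff_gcd_eq_one]
    simpa [Int.gcd, Nat.Coprime] using hc
  obtain ⟨p, hp, hpx, hpn⟩ := Nat.Prime.not_coprime_iff_dvd.mp h1'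
  exact ⟨p, Nat.mem_primeFactors.mpr ⟨hp, hpn, hb⟩, Int.natCast_dvd.mpr hpx⟩

lemma general (a b J m : ℕ) (hb : b ≠ 0)
    (hJa : ∀ s : ℤ, ∃ x ∈ Finset.Ico s (s + J), IsCoprime x (a : ℤ))
    (h : ∑ p ∈ b.primeFactors, ⌈(m : ℚ) / p⌉ < ((m / J : ℕ) : ℤ)) (s : ℤ) :
    ∃ x ∈ Finset.Ico s (s + m), IsCoprime x ((a * b : ℕ) : ℤ) := by
  by_contra hcon
  have hall : ∀ x ∈ Finset.Ico s (s + m), ¬ IsCoprime x ((a * b : ℕ) : ℤ) :=
    fun x hx hc => hcon ⟨x, hx, hc⟩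
  choose f hf using fun i : ℕ => hJa (s + i * J)
  have hmem : ∀ i ∈ range (m / J), f i ∈ Finset.Ico s (s + m) := by
    intro i hi
    have h1 := Finset.mem_Ico.mp (hf i).1
    have h2 : (i + 1) * J ≤ m :=
      le_trans (Nat.mul_le_mul_right J (Finset.mem_range.mp hi)) (Nat.div_mul_le_self m J)
    have h3 : ((i : ℤ) + 1) * J ≤ m := by exact_mod_cast h2
    have h4 : (0 : ℤ) ≤ (i : ℤ) * J := by positivity
    rw [Finset.mem_Ico]
    constructor <;> nlinarith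
  have hinj : Set.InjOn f (range (m / J) : Set ℕ) := by
    have hlt : ∀ i j : ℕ, i < j → f i < f j := by
      intro i j hij
      have h1 := Finset.mem_Ico.mp (hf i).1
      have h2 := Finset.mem_Ico.mp (hf j).1
      have h3 : (i + 1) * J ≤ j * J := Nat.mul_le_mul_right J hij
      have h4 : ((i : ℤ) + 1) * J ≤ (j : ℤ) * J := by exact_mod_cast h3
      nlinarith
    intro i _ j _ hij
    rcases lt_trichotomy i j with h1 | h1 | h1
    · exact absurd hij (ne_of_lt (hlt i j h1))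
    · exact h1
    · exact absurd hij.symm (ne_of_lt (hlt j i h1))
  have hsub : (range (m / J)).image f ⊆ b.primeFactors.biUnion
      (fun p => (Finset.Ico s (s + m)).filter (fun x => (p : ℤ) ∣ x)) := by
    intro x hx
    obtain ⟨i, hi, rfl⟩ := Finset.mem_image.mp hx
    have h1 : ¬ IsCoprime (f i) (b : ℤ) := by
      intro hc
      apply hall (f i) (hmem i hi)
      push_cast
      exact IsCoprime.mul_right (hf i).2 hc
    obtain ⟨p, hp, hpx⟩ := exists_prime_dvd b hb (f i) h1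
    rw [Finset.mem_biUnion]
    exact ⟨p, hp, Finset.mem_filter.mpr ⟨hmem i hi, hpx⟩⟩
  have h2 := le_trans (Finset.card_le_card hsub) Finset.card_biUnion_le
  rw [Finset.card_image_of_injOn hinj, Finset.card_range] at h2
  have h3 : ((m / J : ℕ) : ℤ) ≤ ∑ p ∈ b.primeFactors,
      (((Finset.Ico s (s + m)).filter (fun x => (p : ℤ) ∣ x)).card : ℤ) := by
    exact_mod_cast h2
  have h5 : ∑ p ∈ b.primeFactors,
      (((Finset.Ico s (s + m)).filter (fun x => (p : ℤ) ∣ x)).card : ℤ)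
      ≤ ∑ p ∈ b.primeFactors, ⌈(m : ℚ) / p⌉ :=
    Finset.sum_le_sum fun p hp => count_le s m p (Nat.pos_of_mem_primeFactors hp)
  linarith

lemma large (a b J : ℕ) (hb : b ≠ 0) (hJ : 0 < J)
    (hJa : ∀ s : ℤ, ∃ x ∈ Finset.Ico s (s + J), IsCoprime x (a : ℤ))
    (hp : ∀ p ∈ b.primeFactors, (b.primeFactors.card + 1) * J ≤ p) (s : ℤ) :
    ∃ x ∈ Finset.Ico s (s + ((b.primeFactors.card + 1) * J : ℕ)),
      IsCoprime x ((a * b : ℕ) : ℤ) := by
  apply general a b J _ hb hJa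
  rw [Nat.mul_div_cancel _ hJ]
  have h1 : ∑ p ∈ b.primeFactors, ⌈(((b.primeFactors.card + 1) * J : ℕ) : ℚ) / p⌉
      ≤ ∑ _p ∈ b.primeFactors, (1 : ℤ) := by
    refine Finset.sum_le_sum fun p hpp => ?_
    rw [Int.ceil_le]
    have hp0 : (0 : ℚ) < p := by exact_mod_cast Nat.pos_of_mem_primeFactors hpp
    rw [div_le_iff₀ hp0]
    have h2 : (((b.primeFactors.card + 1) * J : ℕ) : ℚ) ≤ (p : ℚ) := by exact_mod_cast hp p hpp
    simpa using h2
  rw [Finset.sum_const, nsmul_eq_mul, mul_one] at h1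
  push_cast at h1 ⊢
  linarith

/-- Let `a, b, J ≥ 1` and suppose every `J` consecutive integers contain one coprime to `a`
(that is, `j(a) ≤ J`).
(1) If `∑_{p ∣ b} ⌈m/p⌉ < ⌊m/J⌋`, every `m` consecutive integers contain one coprime to `a b`.
(2) If every prime dividing `b` is at least `(ω(b)+1) J`, every `(ω(b)+1) J` consecutive integers
contain one coprime to `a b`. -/
theorem result (a b J : ℕ) (hb : b ≠ 0) (hJ : 0 < J)
    (hJa : ∀ s : ℤ, ∃ x ∈ Finset.Ico s (s + J), IsCoprime x (a : ℤ)) :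
    (∀ m : ℕ, ∑ p ∈ b.primeFactors, ⌈(m : ℚ) / p⌉ < ((m / J : ℕ) : ℤ) →
      ∀ s : ℤ, ∃ x ∈ Finset.Ico s (s + m), IsCoprime x ((a * b : ℕ) : ℤ)) ∧
    ((∀ p ∈ b.primeFactors, (b.primeFactors.card + 1) * J ≤ p) →
      ∀ s : ℤ, ∃ x ∈ Finset.Ico s (s + ((b.primeFactors.card + 1) * J : ℕ)),
        IsCoprime x ((a * b : ℕ) : ℤ)) :=
  ⟨fun m h => general a b J m hb hJa h, fun h => large a b J hb hJ hJa h⟩

end Vale.Agent.Results.P013.LargePrimes
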